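import Vale.Agent.Lib.P219.Key

namespace Vale.Agent.Lib.P219

open Set Filter Topology

/-- Abstract comparison for balls: if the density `a` dominates `sn ^ (m + 1)` and the ratio
`a / sn ^ (m + 1)` is maximal at `R` (in cross-multiplied form), then the model ball with the
same volume has boundary area at most `a R`. -/
theorem abstract_ball (m : ℕ) {κ : ℝ} (hκ : κ ≤ 0) (a : ℝ → ℝ) {R : ℝ} (hR : 0 < R)
    (ha : ContinuousOn a (Icc 0 R))
    (hge : ∀ t ∈ Ioc 0 R, sn κ t ^ (m + 1) ≤ a t)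
    (hmono : ∀ t ∈ Ioc 0 R, a t * sn κ R ^ (m + 1) ≤ a R * sn κ t ^ (m + 1)) :
    ∃ ρ, R ≤ ρ ∧ GG m κ ρ = ∫ t in (0 : ℝ)..R, a t ∧ sn κ ρ ^ (m + 1) ≤ a R ∧
      (sn κ ρ ^ (m + 1) = a R →
        ∀ t ∈ Ioc 0 R, a t * sn κ R ^ (m + 1) = a R * sn κ t ^ (m + 1)) := by
  have hsc : Continuous fun t => sn κ t ^ (m + 1) := (continuous_sn hκ).pow _
  have hai : IntervalIntegrable a MeasureTheory.volume 0 R :=
    ha.intervalIntegrable_of_Icc hR.le
  have hsi : IntervalIntegrable (fun t => sn κ t ^ (m + 1)) MeasureTheory.volume 0 R :=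
    hsc.intervalIntegrable _ _
  -- the volume dominates the model volume
  have h1 : GG m κ R ≤ ∫ t in (0 : ℝ)..R, a t := by
    apply intervalIntegral.integral_mono_on_of_le_Ioo hR.le hsi hai
    intro x hx
    exact hge x ⟨hx.1, hx.2.le⟩
  -- the volume is at most the scaled model volume
  have h2 : (∫ t in (0 : ℝ)..R, a t) * sn κ R ^ (m + 1) ≤ a R * GG m κ R := by
    have e1 : (∫ t in (0 : ℝ)..R, a t) * sn κ R ^ (m + 1)
        = ∫ t in (0 : ℝ)..R, a t * sn κ R ^ (m + 1) := by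
      rw [intervalIntegral.integral_mul_const]
    have e2 : a R * GG m κ R = ∫ t in (0 : ℝ)..R, a R * sn κ t ^ (m + 1) := by
      rw [intervalIntegral.integral_const_mul]
      rfl
    rw [e1, e2]
    apply intervalIntegral.integral_mono_on_of_le_Ioo hR.le (hai.mul_const _) (hsi.const_mul _)
    intro x hx
    exact hmono x ⟨hx.1, hx.2.le⟩
  have hGR : 0 < GG m κ R := GG_pos m hκ hR
  set v := ∫ t in (0 : ℝ)..R, a t with hv
  -- existence of the model radius
  obtain ⟨ρ, hρ, hρv⟩ : ∃ ρ ∈ Icc R (max R (v + 1)), GG m κ ρ = v := by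
    have hle : R ≤ max R (v + 1) := le_max_left _ _
    have hb1 : (1 : ℝ) ≤ max R (v + 1) := by
      have : (1 : ℝ) ≤ v + 1 := by linarith
      exact this.trans (le_max_right _ _)
    have hb2 : v ≤ GG m κ (max R (v + 1)) := by
      have := GG_ge m hκ hb1
      have h3 : v + 1 ≤ max R (v + 1) := le_max_right _ _
      linarith
    have := intermediate_value_Icc hle (continuous_GG m hκ).continuousOn
    exact this ⟨h1, hb2⟩
  have hRρ : R ≤ ρ := hρ.1
  have hcross := GG_cross m hκ hR hRρ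
  rw [hρv] at hcross
  have hkey : GG m κ R * sn κ ρ ^ (m + 1) ≤ GG m κ R * a R := by
    calc GG m κ R * sn κ ρ ^ (m + 1) ≤ v * sn κ R ^ (m + 1) := hcross
      _ ≤ a R * GG m κ R := h2
      _ = GG m κ R * a R := mul_comm _ _
  refine ⟨ρ, hRρ, hρv, le_of_mul_le_mul_left hkey hGR, ?_⟩
  intro heq
  have h3 : v * sn κ R ^ (m + 1) = a R * GG m κ R := by
    apply le_antisymm h2
    rw [← heq]
    calc sn κ ρ ^ (m + 1) * GG m κ R = GG m κ R * sn κ ρ ^ (m + 1) := mul_comm _ _
      _ ≤ v * sn κ R ^ (m + 1) := hcross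
  by_contra hcon
  push Not at hcon
  obtain ⟨c, hc, hne⟩ := hcon
  have hlt : a c * sn κ R ^ (m + 1) < a R * sn κ c ^ (m + 1) :=
    lt_of_le_of_ne (hmono c hc) hne
  have hstrict : (∫ t in (0 : ℝ)..R, a t * sn κ R ^ (m + 1))
      < ∫ t in (0 : ℝ)..R, a R * sn κ t ^ (m + 1) := by
    apply intervalIntegral.integral_lt_integral_of_continuousOn_of_le_of_exists_lt hR
    · exact ha.mul continuousOn_const
    · exact (continuous_const.mul hsc).continuousOn
    · exact hmono
    · exact ⟨c, ⟨hc.1.le, hc.2⟩, hlt⟩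
  rw [intervalIntegral.integral_mul_const, intervalIntegral.integral_const_mul] at hstrict
  have h4 : a R * GG m κ R = a R * ∫ t in (0 : ℝ)..R, sn κ t ^ (m + 1) := rfl
  rw [← hv, ← h4] at hstrict
  exact absurd h3 hstrict.ne

end Vale.Agent.Lib.P219
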