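import Mathlib

namespace Vale.Agent.Lib.P219

/-- `omega n` is the volume of the Euclidean unit ball of dimension `n`. -/
noncomputable def omega (n : ℕ) : ℝ :=
  (MeasureTheory.volume (Metric.ball (0 : EuclideanSpace ℝ (Fin n)) 1)).toReal

/-- `sn κ r` is the function `sn_b(r)` of the model space of curvature `κ ≤ 0`, with
`b = sqrt (-κ)`: it is `r` if `κ = 0` and `sinh (b r) / b` otherwise. -/
noncomputable def sn (κ r : ℝ) : ℝ :=
  if κ = 0 then r else Real.sinh (Real.sqrt (-κ) * r) / Real.sqrt (-κ)

/-- Boundary area of a geodesic ball of radius `r` in the `n`-dimensional model space of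
curvature `κ`. -/
noncomputable def modelArea (n : ℕ) (κ r : ℝ) : ℝ :=
  n * omega n * sn κ r ^ (n - 1)

/-- Volume of a geodesic ball of radius `r` in the `n`-dimensional model space of
curvature `κ`. -/
noncomputable def modelVol (n : ℕ) (κ r : ℝ) : ℝ :=
  n * omega n * ∫ t in (0 : ℝ)..r, sn κ t ^ (n - 1)

end Vale.Agent.Lib.P219
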