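import Vale.Agent.Lib.P219.Model

namespace Vale.Agent.Lib.P219

open Set Filter Topology

/-- Auxiliary function `F = sn ^ m * cs - (m + 1) * (-κ) * GG`. -/
noncomputable def FF (m : ℕ) (κ r : ℝ) : ℝ :=
  sn κ r ^ m * cs κ r - (m + 1) * (-κ) * GG m κ r

/-- Auxiliary function `E = sn ^ (m + 2) - (m + 1) * cs * GG`. -/
noncomputable def EE (m : ℕ) (κ r : ℝ) : ℝ :=
  sn κ r ^ (m + 2) - (m + 1) * (cs κ r * GG m κ r)

lemma hasDerivAt_FF (m : ℕ) {κ : ℝ} (hκ : κ ≤ 0) (r : ℝ) :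
    HasDerivAt (FF m κ)
      (m * sn κ r ^ (m - 1) * cs κ r * cs κ r + sn κ r ^ m * (-κ * sn κ r)
        - (m + 1) * (-κ) * sn κ r ^ (m + 1)) r := by
  have h1 := ((hasDerivAt_sn hκ r).fun_pow m).mul (hasDerivAt_cs hκ r)
  have h2 := (hasDerivAt_GG m hκ r).const_mul (((m : ℝ) + 1) * (-κ))
  exact h1.sub h2

lemma FF_deriv_nonneg (m : ℕ) {κ : ℝ} (hκ : κ ≤ 0) {r : ℝ} (hr : 0 ≤ r) :
    0 ≤ m * sn κ r ^ (m - 1) * cs κ r * cs κ r + sn κ r ^ m * (-κ * sn κ r)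
        - (m + 1) * (-κ) * sn κ r ^ (m + 1) := by
  have hs := sn_nonneg hκ hr
  have hc := cs_sq hκ r
  rcases Nat.eq_zero_or_pos m with hm | hm
  · subst hm
    simp
  · obtain ⟨k, rfl⟩ : ∃ k, m = k + 1 := ⟨m - 1, by omega⟩
    have h1 : ((k + 1 : ℕ) : ℝ) * sn κ r ^ (k + 1 - 1) * cs κ r * cs κ r
        + sn κ r ^ (k + 1) * (-κ * sn κ r)
        - (((k + 1 : ℕ) : ℝ) + 1) * (-κ) * sn κ r ^ (k + 1 + 1)
        = ((k : ℝ) + 1) * sn κ r ^ k * (cs κ r ^ 2 - (-κ) * sn κ r ^ 2) := by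
      push_cast
      ring
    rw [h1, hc]
    have h2 : (1 + -κ * sn κ r ^ 2 - -κ * sn κ r ^ 2) = 1 := by ring
    rw [h2]
    positivity

lemma FF_nonneg (m : ℕ) {κ : ℝ} (hκ : κ ≤ 0) : ∀ r, 0 ≤ r → 0 ≤ FF m κ r := by
  apply nonneg_of_hasDerivAt_nonneg (fun x _ => hasDerivAt_FF m hκ x)
  · simp only [FF, GG_zero, sn_zero, cs_zero]
    rcases Nat.eq_zero_or_pos m with hm | hm
    · subst hm
      simp
    · simp [Nat.pos_iff_ne_zero.mp hm]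
  · intro x hx
    exact FF_deriv_nonneg m hκ hx.le

lemma hasDerivAt_EE (m : ℕ) {κ : ℝ} (hκ : κ ≤ 0) (r : ℝ) :
    HasDerivAt (EE m κ) (sn κ r * FF m κ r) r := by
  have h1 := (hasDerivAt_sn hκ r).fun_pow (m + 2)
  have h2 := ((hasDerivAt_cs hκ r).mul (hasDerivAt_GG m hκ r)).const_mul ((m : ℝ) + 1)
  have h3 : HasDerivAt (EE m κ) (((m + 2 : ℕ) : ℝ) * sn κ r ^ (m + 2 - 1) * cs κ r
      - ((m : ℝ) + 1) * (-κ * sn κ r * GG m κ r + cs κ r * sn κ r ^ (m + 1))) r := h1.sub h2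
  refine h3.congr_deriv ?_
  have e : m + 2 - 1 = m + 1 := rfl
  rw [e]
  simp only [FF]
  push_cast
  ring

lemma EE_nonneg (m : ℕ) {κ : ℝ} (hκ : κ ≤ 0) : ∀ r, 0 ≤ r → 0 ≤ EE m κ r := by
  apply nonneg_of_hasDerivAt_nonneg (fun x _ => hasDerivAt_EE m hκ x)
  · simp [EE, GG_zero, sn_zero]
  · intro x hx
    exact mul_nonneg (sn_nonneg hκ hx.le) (FF_nonneg m hκ x hx.le)

/-- The ratio `GG / sn ^ (m + 1)` is monotone on `(0, ∞)`. -/
lemma GG_div_monotoneOn (m : ℕ) {κ : ℝ} (hκ : κ ≤ 0) :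
    MonotoneOn (fun r => GG m κ r / sn κ r ^ (m + 1)) (Ioi 0) := by
  have hd : ∀ x, 0 < x → HasDerivAt (fun r => GG m κ r / sn κ r ^ (m + 1))
      ((sn κ x ^ (m + 1) * sn κ x ^ (m + 1)
        - GG m κ x * ((m + 1 : ℕ) * sn κ x ^ (m + 1 - 1) * cs κ x)) / (sn κ x ^ (m + 1)) ^ 2) x := by
    intro x hx
    have hne : sn κ x ^ (m + 1) ≠ 0 := (pow_pos (sn_pos hκ hx) _).ne'
    exact (hasDerivAt_GG m hκ x).fun_div ((hasDerivAt_sn hκ x).fun_pow (m + 1)) hne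
  apply monotoneOn_of_deriv_nonneg (convex_Ioi 0)
  · exact fun x hx => (hd x hx).continuousAt.continuousWithinAt
  · intro x hx
    rw [interior_Ioi] at hx
    exact (hd x hx).differentiableAt.differentiableWithinAt
  · intro x hx
    rw [interior_Ioi] at hx
    rw [(hd x hx).deriv]
    apply div_nonneg _ (sq_nonneg _)
    have hE := EE_nonneg m hκ x hx.le
    have hs := sn_pos hκ hx
    have h1 : sn κ x ^ (m + 1) * sn κ x ^ (m + 1)
        - GG m κ x * (((m + 1 : ℕ) : ℝ) * sn κ x ^ (m + 1 - 1) * cs κ x)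
        = sn κ x ^ m * EE m κ x := by
      simp only [EE, Nat.add_sub_cancel]
      push_cast
      ring
    rw [h1]
    positivity

/-- Cross-multiplied monotonicity of `GG / sn ^ (m + 1)`. -/
lemma GG_cross (m : ℕ) {κ : ℝ} (hκ : κ ≤ 0) {R ρ : ℝ} (hR : 0 < R) (hRρ : R ≤ ρ) :
    GG m κ R * sn κ ρ ^ (m + 1) ≤ GG m κ ρ * sn κ R ^ (m + 1) := by
  have h := GG_div_monotoneOn m hκ (mem_Ioi.mpr hR) (mem_Ioi.mpr (hR.trans_le hRρ)) hRρ
  have h1 : 0 < sn κ R ^ (m + 1) := pow_pos (sn_pos hκ hR) _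
  have h2 : 0 < sn κ ρ ^ (m + 1) := pow_pos (sn_pos hκ (hR.trans_le hRρ)) _
  simp only at h
  rw [div_le_div_iff₀ h1 h2] at h
  exact h

lemma GG_strictMono (m : ℕ) {κ : ℝ} (hκ : κ ≤ 0) : StrictMonoOn (GG m κ) (Ici 0) := by
  apply strictMonoOn_of_deriv_pos (convex_Ici 0)
  · exact fun x _ => (hasDerivAt_GG m hκ x).continuousAt.continuousWithinAt
  · intro x hx
    rw [interior_Ici] at hx
    rw [(hasDerivAt_GG m hκ x).deriv]
    exact pow_pos (sn_pos hκ hx) _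

lemma GG_pos (m : ℕ) {κ : ℝ} (hκ : κ ≤ 0) {r : ℝ} (hr : 0 < r) : 0 < GG m κ r := by
  have h := GG_strictMono m hκ (mem_Ici.mpr le_rfl) (mem_Ici.mpr hr.le) hr
  rwa [GG_zero] at h

lemma continuous_GG (m : ℕ) {κ : ℝ} (hκ : κ ≤ 0) : Continuous (GG m κ) :=
  continuous_iff_continuousAt.mpr fun r => (hasDerivAt_GG m hκ r).continuousAt

/-- `GG` grows at least linearly: `r - 1 ≤ GG m κ r` for `r ≥ 1`. -/
lemma GG_ge (m : ℕ) {κ : ℝ} (hκ : κ ≤ 0) {r : ℝ} (hr : 1 ≤ r) : r - 1 ≤ GG m κ r := by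
  have hmono : MonotoneOn (fun x => GG m κ x - x) (Ici 1) := by
    have hd : ∀ x, HasDerivAt (fun x => GG m κ x - x) (sn κ x ^ (m + 1) - 1) x :=
      fun x => (hasDerivAt_GG m hκ x).sub (hasDerivAt_id' x)
    apply monotoneOn_of_deriv_nonneg (convex_Ici 1)
    · exact fun x _ => (hd x).continuousAt.continuousWithinAt
    · exact fun x _ => (hd x).differentiableAt.differentiableWithinAt
    · intro x hx
      rw [interior_Ici] at hx
      rw [(hd x).deriv]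
      have h1 : (1 : ℝ) ≤ sn κ x := hx.le.trans (le_sn hκ (by linarith [mem_Ioi.mp hx]))
      have h2 : (1 : ℝ) ≤ sn κ x ^ (m + 1) := one_le_pow₀ h1
      linarith
  have h := hmono (mem_Ici.mpr le_rfl) (mem_Ici.mpr hr) hr
  have h1 : 0 < GG m κ 1 := GG_pos m hκ one_pos
  simp only at h
  linarith

end Vale.Agent.Lib.P219
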