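import Vale.Agent.Lib.P219.RotSym

namespace Vale.Agent.Lib.P219

open Set Filter Topology

lemma omega_pos (n : ℕ) : 0 < omega n := by
  unfold omega
  apply ENNReal.toReal_pos
  · exact (Metric.measure_ball_pos MeasureTheory.volume _ one_pos).ne'
  · exact MeasureTheory.measure_ball_lt_top.ne

/-- Analytic form of the generalized Cartan-Hadamard inequality, with rigidity, for balls centred
at the pole of a rotationally symmetric manifold with radial curvature at most `κ`. -/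
theorem rotSym_main (n : ℕ) (hn : 2 ≤ n) (κ : ℝ) (hκ : κ ≤ 0) (f : ℝ → ℝ)
    (hf : Differentiable ℝ f) (hf' : Differentiable ℝ (deriv f))
    (hf0 : f 0 = 0) (hf1 : deriv f 0 = 1)
    (hpos : ∀ r, 0 < r → 0 < f r)
    (hcurv : ∀ r, 0 < r → -(deriv (deriv f) r) / f r ≤ κ)
    (R : ℝ) (hR : 0 < R) :
    ∃ ρ, 0 ≤ ρ ∧
      modelVol n κ ρ = n * omega n * ∫ t in (0 : ℝ)..R, f t ^ (n - 1) ∧
      modelArea n κ ρ ≤ n * omega n * f R ^ (n - 1) ∧
      (modelArea n κ ρ = n * omega n * f R ^ (n - 1) →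
        ρ = R ∧ ∀ r ∈ Set.Icc 0 R, f r = sn κ r) := by
  obtain ⟨m, rfl⟩ : ∃ m, n = m + 2 := ⟨n - 2, by omega⟩
  have hc : 0 < ((m + 2 : ℕ) : ℝ) * omega (m + 2) :=
    mul_pos (by positivity) (omega_pos _)
  have hcurv' : ∀ r, 0 < r → -κ * f r ≤ deriv (deriv f) r := by
    intro r hr
    have h := hcurv r hr
    rw [div_le_iff₀ (hpos r hr)] at h
    linarith
  obtain ⟨ρ, hρ, hvol, hle, heq⟩ := rotSym_ball m hκ hf hf' hf0 hf1 hcurv' hR
  have e : m + 2 - 1 = m + 1 := rfl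
  refine ⟨ρ, hρ, ?_, ?_, ?_⟩
  · unfold modelVol
    rw [e]
    unfold GG at hvol
    rw [hvol]
  · unfold modelArea
    rw [e]
    exact mul_le_mul_of_nonneg_left hle hc.le
  · unfold modelArea
    rw [e]
    intro h
    exact heq (mul_left_cancel₀ hc.ne' h)

end Vale.Agent.Lib.P219
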