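import Vale.Agent.Lib.P219.Defs

namespace Vale.Agent.Lib.P219

open Set Filter Topology

/-- The derivative of `sn κ`. -/
noncomputable def cs (κ r : ℝ) : ℝ := Real.cosh (Real.sqrt (-κ) * r)

lemma sqrt_neg_pos {κ : ℝ} (hκ : κ ≤ 0) (h0 : κ ≠ 0) : 0 < Real.sqrt (-κ) := by
  apply Real.sqrt_pos.mpr
  have : κ < 0 := lt_of_le_of_ne hκ h0
  linarith

lemma sqrt_neg_mul_self {κ : ℝ} (hκ : κ ≤ 0) : Real.sqrt (-κ) * Real.sqrt (-κ) = -κ :=
  Real.mul_self_sqrt (by linarith)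

lemma sn_zero (κ : ℝ) : sn κ 0 = 0 := by
  unfold sn
  split_ifs <;> simp

lemma cs_zero (κ : ℝ) : cs κ 0 = 1 := by
  simp [cs]

lemma sn_of_eq (r : ℝ) : sn 0 r = r := by
  simp [sn]

lemma sn_of_ne {κ : ℝ} (h0 : κ ≠ 0) (r : ℝ) :
    sn κ r = Real.sinh (Real.sqrt (-κ) * r) / Real.sqrt (-κ) := by
  simp [sn, h0]

lemma hasDerivAt_sn {κ : ℝ} (hκ : κ ≤ 0) (r : ℝ) : HasDerivAt (sn κ) (cs κ r) r := by
  by_cases h0 : κ = 0
  · subst h0
    have h1 : sn 0 = fun r => r := by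
      funext r
      simp [sn]
    rw [h1]
    have h2 : cs 0 r = 1 := by simp [cs]
    rw [h2]
    exact hasDerivAt_id' r
  · have hb := sqrt_neg_pos hκ h0
    have h1 : sn κ = fun r => Real.sinh (Real.sqrt (-κ) * r) / Real.sqrt (-κ) := by
      funext r
      exact sn_of_ne h0 r
    rw [h1]
    have h2 : HasDerivAt (fun r : ℝ => Real.sqrt (-κ) * r) (Real.sqrt (-κ)) r := by
      simpa using (hasDerivAt_id' r).const_mul (Real.sqrt (-κ))
    have h3 := (h2.sinh).div_const (Real.sqrt (-κ))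
    have h4 : Real.cosh (Real.sqrt (-κ) * r) * Real.sqrt (-κ) / Real.sqrt (-κ) = cs κ r := by
      unfold cs
      field_simp
    rw [← h4]
    exact h3

lemma hasDerivAt_cs {κ : ℝ} (hκ : κ ≤ 0) (r : ℝ) : HasDerivAt (cs κ) (-κ * sn κ r) r := by
  have h2 : HasDerivAt (fun r : ℝ => Real.sqrt (-κ) * r) (Real.sqrt (-κ)) r := by
    simpa using (hasDerivAt_id' r).const_mul (Real.sqrt (-κ))
  have h3 := h2.cosh
  have h5 : cs κ = fun r => Real.cosh (Real.sqrt (-κ) * r) := rfl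
  rw [h5]
  by_cases h0 : κ = 0
  · subst h0
    simpa using h3
  · have hb := sqrt_neg_pos hκ h0
    have hbb := sqrt_neg_mul_self hκ
    have h4 : Real.sinh (Real.sqrt (-κ) * r) * Real.sqrt (-κ) = -κ * sn κ r := by
      rw [sn_of_ne h0]
      set b := Real.sqrt (-κ) with hbdef
      rw [← hbb]
      field_simp
    rw [← h4]
    exact h3

lemma cs_sq {κ : ℝ} (hκ : κ ≤ 0) (r : ℝ) : cs κ r ^ 2 = 1 + (-κ) * sn κ r ^ 2 := by
  by_cases h0 : κ = 0
  · subst h0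
    simp [cs, sn]
  · have hb := sqrt_neg_pos hκ h0
    have hbb := sqrt_neg_mul_self hκ
    rw [sn_of_ne h0]
    unfold cs
    have h := Real.cosh_sq (Real.sqrt (-κ) * r)
    set b := Real.sqrt (-κ) with hbdef
    rw [h, div_pow, ← hbb]
    field_simp
    ring

lemma one_le_cs (κ r : ℝ) : 1 ≤ cs κ r := Real.one_le_cosh _

lemma cs_pos (κ r : ℝ) : 0 < cs κ r := Real.cosh_pos _

lemma le_sn {κ : ℝ} (hκ : κ ≤ 0) {r : ℝ} (hr : 0 ≤ r) : r ≤ sn κ r := by
  by_cases h0 : κ = 0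
  · subst h0
    simp [sn]
  · have hb := sqrt_neg_pos hκ h0
    simp only [sn, h0, if_false]
    rw [le_div_iff₀ hb]
    have h1 : 0 ≤ Real.sqrt (-κ) * r := mul_nonneg hb.le hr
    have h2 := Real.self_le_sinh_iff.mpr h1
    linarith

lemma sn_nonneg {κ : ℝ} (hκ : κ ≤ 0) {r : ℝ} (hr : 0 ≤ r) : 0 ≤ sn κ r :=
  hr.trans (le_sn hκ hr)

lemma sn_pos {κ : ℝ} (hκ : κ ≤ 0) {r : ℝ} (hr : 0 < r) : 0 < sn κ r :=
  hr.trans_le (le_sn hκ hr.le)

lemma continuous_sn {κ : ℝ} (hκ : κ ≤ 0) : Continuous (sn κ) :=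
  continuous_iff_continuousAt.mpr fun r => (hasDerivAt_sn hκ r).continuousAt

lemma continuous_cs {κ : ℝ} (hκ : κ ≤ 0) : Continuous (cs κ) :=
  continuous_iff_continuousAt.mpr fun r => (hasDerivAt_cs hκ r).continuousAt

lemma sn_mono {κ : ℝ} (hκ : κ ≤ 0) : Monotone (sn κ) := by
  apply monotone_of_deriv_nonneg
  · exact fun r => (hasDerivAt_sn hκ r).differentiableAt
  · intro r
    rw [(hasDerivAt_sn hκ r).deriv]
    exact (cs_pos κ r).le

lemma sn_strictMono {κ : ℝ} (hκ : κ ≤ 0) : StrictMono (sn κ) :=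
  strictMono_of_hasDerivAt_pos (fun r => hasDerivAt_sn hκ r) (fun r => cs_pos κ r)

/-- A function on `[0, ∞)` with nonnegative derivative and nonnegative initial value is
nonnegative. -/
lemma nonneg_of_hasDerivAt_nonneg {g g' : ℝ → ℝ} (hg : ∀ x, 0 ≤ x → HasDerivAt g (g' x) x)
    (h0 : 0 ≤ g 0) (hg' : ∀ x, 0 < x → 0 ≤ g' x) : ∀ x, 0 ≤ x → 0 ≤ g x := by
  have hmono : MonotoneOn g (Ici 0) := by
    apply monotoneOn_of_deriv_nonneg (convex_Ici 0)
    · exact fun x hx => (hg x hx).continuousAt.continuousWithinAt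
    · intro x hx
      rw [interior_Ici] at hx
      exact (hg x (le_of_lt hx)).differentiableAt.differentiableWithinAt
    · intro x hx
      rw [interior_Ici] at hx
      rw [(hg x (le_of_lt hx)).deriv]
      exact hg' x hx
  intro x hx
  exact h0.trans (hmono (mem_Ici.mpr le_rfl) (mem_Ici.mpr hx) hx)

/-- `GG m κ r` is the integral of `sn κ ^ (m + 1)` over `[0, r]`. -/
noncomputable def GG (m : ℕ) (κ r : ℝ) : ℝ := ∫ t in (0 : ℝ)..r, sn κ t ^ (m + 1)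

lemma GG_zero (m : ℕ) (κ : ℝ) : GG m κ 0 = 0 := by
  simp [GG]

lemma hasDerivAt_GG (m : ℕ) {κ : ℝ} (hκ : κ ≤ 0) (r : ℝ) :
    HasDerivAt (GG m κ) (sn κ r ^ (m + 1)) r := by
  have hc : Continuous fun t => sn κ t ^ (m + 1) := (continuous_sn hκ).pow _
  exact intervalIntegral.integral_hasDerivAt_right (hc.intervalIntegrable _ _)
    (hc.stronglyMeasurableAtFilter _ _) hc.continuousAt

end Vale.Agent.Lib.P219
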