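import Vale.Agent.Lib.P219.Ball

namespace Vale.Agent.Lib.P219

open Set Filter Topology

section Sturm

variable {κ : ℝ} {f : ℝ → ℝ}

/-- Sturm comparison: the Wronskian `f' * sn - f * cs` is nonnegative on `[0, ∞)`. -/
lemma wronskian_nonneg (hκ : κ ≤ 0) (hf : Differentiable ℝ f) (hf' : Differentiable ℝ (deriv f))
    (hf0 : f 0 = 0) (hcurv : ∀ r, 0 < r → -κ * f r ≤ deriv (deriv f) r) :
    ∀ r, 0 ≤ r → 0 ≤ deriv f r * sn κ r - f r * cs κ r := by
  have hd : ∀ x, 0 ≤ x → HasDerivAt (fun r => deriv f r * sn κ r - f r * cs κ r)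
      ((deriv (deriv f) x + κ * f x) * sn κ x) x := by
    intro x _
    have h1 := ((hf' x).hasDerivAt.mul (hasDerivAt_sn hκ x)).sub
      ((hf x).hasDerivAt.mul (hasDerivAt_cs hκ x))
    refine h1.congr_deriv ?_
    ring
  apply nonneg_of_hasDerivAt_nonneg hd
  · simp [hf0, sn_zero]
  · intro x hx
    have := hcurv x hx
    exact mul_nonneg (by linarith) (sn_nonneg hκ hx.le)

/-- The ratio `f / sn` is monotone on `(0, ∞)`. -/
lemma ratio_monotoneOn (hκ : κ ≤ 0) (hf : Differentiable ℝ f) (hf' : Differentiable ℝ (deriv f))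
    (hf0 : f 0 = 0) (hcurv : ∀ r, 0 < r → -κ * f r ≤ deriv (deriv f) r) :
    MonotoneOn (fun r => f r / sn κ r) (Ioi 0) := by
  have hd : ∀ x, 0 < x → HasDerivAt (fun r => f r / sn κ r)
      ((deriv f x * sn κ x - f x * cs κ x) / sn κ x ^ 2) x := by
    intro x hx
    exact (hf x).hasDerivAt.fun_div (hasDerivAt_sn hκ x) (sn_pos hκ hx).ne'
  apply monotoneOn_of_deriv_nonneg (convex_Ioi 0)
  · exact fun x hx => (hd x hx).continuousAt.continuousWithinAt
  · intro x hx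
    rw [interior_Ioi] at hx
    exact (hd x hx).differentiableAt.differentiableWithinAt
  · intro x hx
    rw [interior_Ioi] at hx
    rw [(hd x hx).deriv]
    exact div_nonneg (wronskian_nonneg hκ hf hf' hf0 hcurv x hx.le) (sq_nonneg _)

/-- The ratio `f / sn` tends to `1` at `0` from the right. -/
lemma ratio_tendsto (hκ : κ ≤ 0) (hf : Differentiable ℝ f) (hf0 : f 0 = 0)
    (hf1 : deriv f 0 = 1) :
    Tendsto (fun r => f r / sn κ r) (𝓝[>] 0) (𝓝 1) := by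
  have h1 : Tendsto (fun t : ℝ => t⁻¹ • (f (0 + t) - f 0)) (𝓝[>] 0) (𝓝 1) := by
    have := (hf 0).hasDerivAt.tendsto_slope_zero_right
    rwa [hf1] at this
  have h2 : Tendsto (fun t : ℝ => t⁻¹ • (sn κ (0 + t) - sn κ 0)) (𝓝[>] 0) (𝓝 1) := by
    have := (hasDerivAt_sn hκ 0).tendsto_slope_zero_right
    rwa [cs_zero] at this
  have h3 := h1.div h2 one_ne_zero
  rw [div_one] at h3
  refine h3.congr' ?_
  filter_upwards [self_mem_nhdsWithin] with t ht
  have ht0 : t ≠ 0 := (mem_Ioi.mp ht).ne'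
  simp only [Pi.div_apply, zero_add, hf0, sn_zero, sub_zero, smul_eq_mul]
  field_simp

/-- The ratio `f / sn` is at least `1` on `(0, ∞)`. -/
lemma one_le_ratio (hκ : κ ≤ 0) (hf : Differentiable ℝ f) (hf' : Differentiable ℝ (deriv f))
    (hf0 : f 0 = 0) (hf1 : deriv f 0 = 1)
    (hcurv : ∀ r, 0 < r → -κ * f r ≤ deriv (deriv f) r) {r : ℝ} (hr : 0 < r) :
    1 ≤ f r / sn κ r := by
  apply le_of_tendsto (ratio_tendsto hκ hf hf0 hf1)
  filter_upwards [Ioo_mem_nhdsGT hr] with t ht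
  exact ratio_monotoneOn hκ hf hf' hf0 hcurv (mem_Ioi.mpr ht.1) (mem_Ioi.mpr hr) ht.2.le

lemma sn_le (hκ : κ ≤ 0) (hf : Differentiable ℝ f) (hf' : Differentiable ℝ (deriv f))
    (hf0 : f 0 = 0) (hf1 : deriv f 0 = 1)
    (hcurv : ∀ r, 0 < r → -κ * f r ≤ deriv (deriv f) r) {r : ℝ} (hr : 0 < r) :
    sn κ r ≤ f r := by
  have h := one_le_ratio hκ hf hf' hf0 hf1 hcurv hr
  rwa [le_div_iff₀ (sn_pos hκ hr), one_mul] at h

lemma cross_le (hκ : κ ≤ 0) (hf : Differentiable ℝ f) (hf' : Differentiable ℝ (deriv f))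
    (hf0 : f 0 = 0) (hcurv : ∀ r, 0 < r → -κ * f r ≤ deriv (deriv f) r) {t R : ℝ}
    (ht : 0 < t) (htR : t ≤ R) : f t * sn κ R ≤ f R * sn κ t := by
  have h := ratio_monotoneOn hκ hf hf' hf0 hcurv (mem_Ioi.mpr ht) (mem_Ioi.mpr (ht.trans_le htR)) htR
  simp only at h
  rwa [div_le_div_iff₀ (sn_pos hκ ht) (sn_pos hκ (ht.trans_le htR))] at h

end Sturm

/-- Centred balls of rotationally symmetric manifolds, analytic form, with `n = m + 2`. -/
theorem rotSym_ball (m : ℕ) {κ : ℝ} (hκ : κ ≤ 0) {f : ℝ → ℝ}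
    (hf : Differentiable ℝ f) (hf' : Differentiable ℝ (deriv f))
    (hf0 : f 0 = 0) (hf1 : deriv f 0 = 1)
    (hcurv : ∀ r, 0 < r → -κ * f r ≤ deriv (deriv f) r) {R : ℝ} (hR : 0 < R) :
    ∃ ρ, 0 ≤ ρ ∧ GG m κ ρ = ∫ t in (0 : ℝ)..R, f t ^ (m + 1) ∧
      sn κ ρ ^ (m + 1) ≤ f R ^ (m + 1) ∧
      (sn κ ρ ^ (m + 1) = f R ^ (m + 1) → ρ = R ∧ ∀ r ∈ Icc 0 R, f r = sn κ r) := by
  have hfpos : ∀ t, 0 < t → 0 ≤ f t := fun t ht =>
    (sn_nonneg hκ ht.le).trans (sn_le hκ hf hf' hf0 hf1 hcurv ht)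
  obtain ⟨ρ, hRρ, hvol, hle, heq⟩ := abstract_ball m hκ (fun t => f t ^ (m + 1)) hR
    ((hf.continuous.pow _).continuousOn)
    (fun t ht => pow_le_pow_left₀ (sn_nonneg hκ ht.1.le) (sn_le hκ hf hf' hf0 hf1 hcurv ht.1) _)
    (fun t ht => by
      have h := cross_le hκ hf hf' hf0 hcurv ht.1 ht.2
      have h0 : 0 ≤ f t * sn κ R := mul_nonneg (hfpos t ht.1) (sn_nonneg hκ hR.le)
      have := pow_le_pow_left₀ h0 h (m + 1)
      simpa [mul_pow] using this)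
  refine ⟨ρ, hR.le.trans hRρ, hvol, hle, ?_⟩
  intro he
  have hall := heq he
  -- the ratio is constant on `(0, R]`
  have hconst : ∀ t ∈ Ioc 0 R, f t / sn κ t = f R / sn κ R := by
    intro t ht
    have h1 := hall t ht
    rw [← mul_pow, ← mul_pow] at h1
    have h0 : 0 ≤ f t * sn κ R := mul_nonneg (hfpos t ht.1) (sn_nonneg hκ hR.le)
    have h0' : 0 ≤ f R * sn κ t := mul_nonneg (hfpos R hR) (sn_nonneg hκ ht.1.le)
    have h2 : f t * sn κ R = f R * sn κ t :=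
      (pow_left_inj₀ h0 h0' (Nat.succ_ne_zero m)).mp h1
    rw [div_eq_div_iff (sn_pos hκ ht.1).ne' (sn_pos hκ hR).ne']
    exact h2
  have hlim : Tendsto (fun r => f r / sn κ r) (𝓝[>] 0) (𝓝 (f R / sn κ R)) := by
    apply tendsto_const_nhds.congr'
    filter_upwards [Ioo_mem_nhdsGT hR] with t ht
    exact (hconst t ⟨ht.1, ht.2.le⟩).symm
  have hone : f R / sn κ R = 1 := tendsto_nhds_unique hlim (ratio_tendsto hκ hf hf0 hf1)
  have hfs : ∀ r ∈ Icc 0 R, f r = sn κ r := by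
    intro r hr
    rcases eq_or_lt_of_le hr.1 with h | h
    · rw [← h, hf0, sn_zero]
    · have := hconst r ⟨h, hr.2⟩
      rw [hone, div_eq_one_iff_eq (sn_pos hκ h).ne'] at this
      exact this
  refine ⟨?_, hfs⟩
  have hG : GG m κ ρ = GG m κ R := by
    rw [hvol]
    apply intervalIntegral.integral_congr
    intro t ht
    rw [uIcc_of_le hR.le] at ht
    simp only
    rw [hfs t ht]
  exact (GG_strictMono m hκ).injOn (mem_Ici.mpr (hR.le.trans hRρ)) (mem_Ici.mpr hR.le) hG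

end Vale.Agent.Lib.P219
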